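import Vale.Agent.P171.Dim.Main

namespace Vale.Agent.Results.P171.EveryDimension

open Vale.Agent.P171.Dim

/-- In every dimension `d ≥ 1`, for every `β₀ > 0`, all `0 < a < b` and every `r₀ > 0` there is one
continuous bounded stable tempered radial pair potential on `d`-dimensional space, two-sidedly
`O(r^(-d-ε))` and attractive beyond distance `r₀`, that has at EVERY inverse temperature `β ≥ β₀` a
first-order phase transition at which the density jumps from at most `a` to at least `b`. -/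
theorem result : ∀ d : ℕ, 1 ≤ d → ∀ β₀ a b r₀ : ℝ, 0 < β₀ → 0 < a → a < b → 0 < r₀ →
    ∃ φ : ℝ → ℝ, Continuous φ ∧ (∃ M : ℝ, ∀ r : ℝ, |φ r| ≤ M) ∧
      (∃ C ε : ℝ, 0 < C ∧ 0 < ε ∧ ∀ r : ℝ, 0 < r → |φ r| ≤ C * r ^ (-((d : ℝ) + ε))) ∧
      (∀ r : ℝ, r₀ ≤ r → φ r ≤ 0) ∧
      IsPotential φ ∧ Stable d φ ∧ Tempered d φ ∧
      ∀ β : ℝ, β₀ ≤ β → HasPhaseTransitionAt d φ β ∧ DensityJump d φ β a b := by
  intro d hd β₀ a b r₀ hβ₀ ha hab hr₀
  have : NeZero d := ⟨by omega⟩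
  obtain ⟨φ, h1, h2, h3, h4, h5, h6, h7, h8⟩ := main_dim d β₀ a b r₀ hβ₀ ha hr₀
  exact ⟨φ, h1, h2, h3, h4, h5, h6, h7, fun β hβ =>
    ⟨hasPhaseTransitionAt_of_jump hab (h8 β hβ), h8 β hβ⟩⟩

end Vale.Agent.Results.P171.EveryDimension
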