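import Vale.Agent.P171.H709.Defs
import Vale.Agent.P171.H709.Main

namespace Vale.Agent.Results.P171.LowTemperatures

open Vale.Agent.P171

/-- For every `β₀ > 0` and all `0 < a < b` there is one continuous bounded stable tempered radial
pair potential on three-dimensional space, `O(r^(-3-ε))` and attractive beyond distance three,
that has a phase transition, and has at EVERY inverse temperature `β ≥ β₀` a first-order phase
transition at which the density jumps from at most `a` to at least `b`. -/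
theorem result : ∀ β₀ a b : ℝ, 0 < β₀ → 0 < a → a < b → ∃ φ : ℝ → ℝ,
    Continuous φ ∧ (∃ M : ℝ, ∀ r : ℝ, |φ r| ≤ M) ∧
    (∃ C ε : ℝ, 0 < C ∧ 0 < ε ∧ ∀ r : ℝ, 0 < r → |φ r| ≤ C * r ^ (-(3 + ε))) ∧
    (∀ r : ℝ, 3 ≤ r → φ r ≤ 0) ∧
    IsPotential φ ∧ Stable φ ∧ Tempered φ ∧ HasPhaseTransition φ ∧
    ∀ β : ℝ, β₀ ≤ β → DensityJump φ β a b := by
  intro β₀ a b hβ₀ ha hab
  obtain ⟨φ, h1, h2, h3, h4, h5, h6, h7, h8⟩ := H709.main709 β₀ a b hβ₀ ha
  exact ⟨φ, h1, h2, h3, h4, h5, h6, h7,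
    H709.hasPhaseTransition_of_jump hβ₀ hab (h8 β₀ le_rfl), h8⟩

end Vale.Agent.Results.P171.LowTemperatures
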